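import Mathlib

/-!
# Projective varieties in Zariski's language

`K` is the function field.  A projective variety is given by the homogeneous coordinates of its
generic point.  Prime divisors are discrete valuations of `K`.
-/

open MvPolynomial Filter Topology

namespace Vale.Agent.P299.V

/-- A discrete valuation of the field `K`, trivial on `ℂ`, with value group `ℤ` (`ord 0 = 0` by
convention). -/
structure DVal (K : Type*) [Field K] [Algebra ℂ K] where
  ord : K → ℤ
  ord_zero : ord 0 = 0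
  ord_const : ∀ c : ℂ, ord (algebraMap ℂ K c) = 0
  ord_mul : ∀ f g, f ≠ 0 → g ≠ 0 → ord (f * g) = ord f + ord g
  ord_add : ∀ f g, f ≠ 0 → g ≠ 0 → f + g ≠ 0 → min (ord f) (ord g) ≤ ord (f + g)
  exists_one : ∃ t, t ≠ 0 ∧ ord t = 1

/-- A projective variety over `ℂ` with function field `K`, given by the homogeneous coordinates
`x_0, …, x_N ∈ K` of its generic point (all different from `0`: the variety lies in no coordinate
hyperplane).  The quotients of forms of the same degree in the `x_j` make up `K`. -/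
structure Var (K : Type*) [Field K] [Algebra ℂ K] where
  N : ℕ
  x : Fin (N + 1) → K
  ne : ∀ j, x j ≠ 0
  gen : ∀ f : K, ∃ (d : ℕ) (P Q : MvPolynomial (Fin (N + 1)) ℂ),
    P.IsHomogeneous d ∧ Q.IsHomogeneous d ∧ aeval x Q ≠ 0 ∧ f = aeval x P / aeval x Q

/-- The transcendence degree of `K` over `ℂ`: the dimension of the varieties with function
field `K`. -/
noncomputable def dim (K : Type*) [Field K] [Algebra ℂ K] : ℕ :=
  Cardinal.toNat (Algebra.trdeg ℂ K)

variable {K : Type*} [Field K] [Algebra ℂ K]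

namespace Var

variable (X : Var K)

/-- `𝒪_X(1)` as a function on valuations: the coordinates generate it. -/
def hyp (V : DVal K) : ℤ :=
  Finset.univ.sup' Finset.univ_nonempty fun j => -V.ord (X.x j)

/-- `c` is a vector of homogeneous coordinates of a complex point of `X`. -/
def IsPt (c : Fin (X.N + 1) → ℂ) : Prop :=
  c ≠ 0 ∧ ∀ (d : ℕ) (P : MvPolynomial (Fin (X.N + 1)) ℂ), P.IsHomogeneous d →
    aeval X.x P = 0 → eval c P = 0

/-- The rational function `f` is regular at the point `c`, with value `z`. -/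
def HasVal (c : Fin (X.N + 1) → ℂ) (f : K) (z : ℂ) : Prop :=
  ∃ (d : ℕ) (P Q : MvPolynomial (Fin (X.N + 1)) ℂ), P.IsHomogeneous d ∧ Q.IsHomogeneous d ∧
    eval c Q ≠ 0 ∧ f = aeval X.x P / aeval X.x Q ∧ z = eval c P / eval c Q

/-- `f` is regular at `c`. -/
def RegAt (c : Fin (X.N + 1) → ℂ) (f : K) : Prop := ∃ z, X.HasVal c f z

/-- The centre of the valuation `V` passes through the point `c`: the local ring of `X` at `c`
is contained in the valuation ring. -/
def Thr (V : DVal K) (c : Fin (X.N + 1) → ℂ) : Prop := ∀ f, X.RegAt c f → 0 ≤ V.ord f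

/-- `V` is (the order of vanishing along) a prime divisor of `X`: its valuation ring is the local
ring of `X` at the centre of `V`. -/
def IsPrime (V : DVal K) : Prop :=
  ∀ f, 0 ≤ V.ord f → ∃ (d : ℕ) (P Q : MvPolynomial (Fin (X.N + 1)) ℂ),
    P.IsHomogeneous d ∧ Q.IsHomogeneous d ∧ aeval X.x Q ≠ 0 ∧
    V.ord (aeval X.x Q) + d * X.hyp V = 0 ∧ f = aeval X.x P / aeval X.x Q

/-- `X` is normal: every local ring is the intersection of the valuation rings of the prime
divisors through the point. -/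
def Normal : Prop :=
  ∀ c, X.IsPt c → ∀ f, (∀ V, X.IsPrime V → X.Thr V c → 0 ≤ V.ord f) → X.RegAt c f

/-- `X` is smooth: it is normal, and the maximal ideal of the local ring at every complex point is
generated by `dim X` elements. -/
def Smooth : Prop :=
  X.Normal ∧ ∀ c, X.IsPt c → ∃ t : Fin (dim K) → K, (∀ i, X.HasVal c (t i) 0) ∧
    ∀ f, X.HasVal c f 0 → ∃ a : Fin (dim K) → K, (∀ i, X.RegAt c (a i)) ∧ f = ∑ i, a i * t i

/-- `D` is a Cartier divisor on `X`, as a function on valuations: near every point it is the order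
of a rational function. -/
def Cartier (D : DVal K → ℤ) : Prop :=
  ∀ c, X.IsPt c → ∃ (d : ℕ) (S : MvPolynomial (Fin (X.N + 1)) ℂ) (g : K), S.IsHomogeneous d ∧
    eval c S ≠ 0 ∧ g ≠ 0 ∧
    ∀ V : DVal K, V.ord (aeval X.x S) + d * X.hyp V = 0 → D V = V.ord g

/-- The rational map from `X` to `Y` given by the inclusion `ι` of function fields is a
morphism. -/
def Dom {k : Type*} [Field k] [Algebra ℂ k] (Y : Var k) (ι : k →ₐ[ℂ] K) : Prop :=
  ∀ c, X.IsPt c → ∃ j, ∀ i, X.RegAt c (ι (Y.x i / Y.x j))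

end Var

theorem DVal.ord_add' (V : DVal K) (f g : K) (a : ℤ) (hf : f = 0 ∨ a ≤ V.ord f)
    (hg : g = 0 ∨ a ≤ V.ord g) : f + g = 0 ∨ a ≤ V.ord (f + g) := by
  by_cases hf0 : f = 0
  · subst hf0; simpa using hg
  by_cases hg0 : g = 0
  · subst hg0; simpa using hf
  by_cases h : f + g = 0
  · exact Or.inl h
  · exact Or.inr ((le_min (hf.resolve_left hf0) (hg.resolve_left hg0)).trans
      (V.ord_add f g hf0 hg0 h))

/-- The global sections of `𝒪_X(D)` that lie in the subfield `F`. -/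
def Var.sec (X : Var K) (F : IntermediateField ℂ K) (D : DVal K → ℤ) : Submodule ℂ K where
  carrier := {f | f ∈ F ∧ ∀ V, X.IsPrime V → f = 0 ∨ -D V ≤ V.ord f}
  zero_mem' := ⟨F.zero_mem, fun _ _ => Or.inl rfl⟩
  add_mem' := by
    rintro f g ⟨hf, hf'⟩ ⟨hg, hg'⟩
    exact ⟨F.add_mem hf hg, fun V hV => V.ord_add' f g _ (hf' V hV) (hg' V hV)⟩
  smul_mem' := by
    rintro c f ⟨hf, hf'⟩
    refine ⟨F.smul_mem hf, fun V hV => ?_⟩
    by_cases hc : c = 0
    · left; simp [hc]
    rcases hf' V hV with h | h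
    · left; simp [h]
    by_cases hf0 : f = 0
    · left; simp [hf0]
    right
    have hc' : algebraMap ℂ K c ≠ 0 := by simpa using hc
    rw [Algebra.smul_def, V.ord_mul _ _ hc' hf0, V.ord_const, zero_add]
    exact h

/-- `h⁰(X, 𝒪_X(D))`. -/
noncomputable def Var.h0 (X : Var K) (D : DVal K → ℤ) : ℕ := Module.finrank ℂ (X.sec ⊤ D)

/-- The intersection number `D · N^{n-1}` is `c` (for `N` ample, `n = dim X`). -/
def Var.Deg (X : Var K) (N D : DVal K → ℤ) (c : ℝ) : Prop :=
  Tendsto (fun m : ℕ => ((dim K - 1).factorial : ℝ) *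
    ((X.h0 (fun V => m * N V + D V) : ℝ) - X.h0 (fun V => m * N V)) / (m : ℝ) ^ (dim K - 1))
    atTop (𝓝 c)

/-- `D` is nef: Cartier, and the divisors `kD + 𝒪_X(1)` have asymptotic order of vanishing `0`
along every discrete valuation. -/
def Var.Nef (X : Var K) (D : DVal K → ℤ) : Prop :=
  X.Cartier D ∧ ∀ (k : ℕ) (V : DVal K) (ε : ℝ), 0 < ε → ∃ m : ℕ, 1 ≤ m ∧
    ∃ s ∈ X.sec ⊤ (fun W => m * (k * D W + X.hyp W)), s ≠ 0 ∧
      ((V.ord s + m * (k * D V + X.hyp V) : ℤ) : ℝ) ≤ ε * m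

open Classical in
/-- The pull back of a divisor `D` by the morphism with inclusion `ι` of function fields: if `V`
restricts to `m` times `Q` then its value is `m * D Q`; it is `0` if `V` restricts to the trivial
valuation. -/
noncomputable def pull {k : Type*} [Field k] [Algebra ℂ k] (ι : k →ₐ[ℂ] K) (D : DVal k → ℤ)
    (V : DVal K) : ℤ :=
  if h : ∃ p : DVal k × ℕ, 1 ≤ p.2 ∧ ∀ f, V.ord (ι f) = p.2 * p.1.ord f then
    h.choose.2 * D h.choose.1 else 0

/-! ## Metrics -/

/-- `s` is a local frame of `𝒪_X(D)` at the point `c`. -/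
def Var.Frame (X : Var K) (D : DVal K → ℤ) (c : Fin (X.N + 1) → ℂ) (s : K) : Prop :=
  s ≠ 0 ∧ ∀ V, X.IsPrime V → X.Thr V c → V.ord s + D V = 0

/-- `𝒪_X(D)` has a smooth Hermitian metric with semipositive curvature.  `ν c s` is the norm of the
local frame `s` at the point `c`.  It is `C^∞`, and `- log ν` is plurisubharmonic, on the
source `U ⊆ ℂ^n` of every holomorphic map `γ` to `X`. -/
def Var.SemiPos (X : Var K) (D : DVal K → ℤ) : Prop :=
  X.Cartier D ∧ ∃ ν : (Fin (X.N + 1) → ℂ) → K → ℝ,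
    (∀ c s, X.IsPt c → X.Frame D c s → 0 < ν c s) ∧
    (∀ c s (l : ℂ), X.IsPt c → X.Frame D c s → l ≠ 0 → ν (l • c) s = ν c s) ∧
    (∀ c s u z, X.IsPt c → X.Frame D c s → X.HasVal c u z → z ≠ 0 →
      ν c (u * s) = ‖z‖ * ν c s) ∧
    ∀ (U : Set (Fin (dim K) → ℂ)) (γ : (Fin (dim K) → ℂ) → Fin (X.N + 1) → ℂ) (s : K),
      IsOpen U → AnalyticOnNhd ℂ γ U → (∀ z ∈ U, X.IsPt (γ z) ∧ X.Frame D (γ z) s) →
      ContDiffOn ℝ ((⊤ : ℕ∞) : WithTop ℕ∞) (fun z => ν (γ z) s) U ∧
      ∀ z w (r : ℝ), 0 < r → (∀ t : ℂ, ‖t‖ ≤ r → z + t • w ∈ U) →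
        -Real.log (ν (γ z) s) ≤
          Real.circleAverage (fun t : ℂ => -Real.log (ν (γ (z + t • w)) s)) 0 r

/-! ## Torus actions and differential forms -/

/-- The group `(ℂ^*)^r`. -/
abbrev Tor (r : ℕ) := Fin r → ℂˣ

/-- The character of `(ℂ^*)^r` with exponents `a`. -/
def chi {r : ℕ} (a : Fin r → ℤ) (g : Tor r) : ℂ := ∏ i, ((g i ^ a i : ℂˣ) : ℂ)

/-- `f` is an eigenfunction for the action `ρ` of the torus on `K`. -/
def Eig {r : ℕ} (ρ : Tor r →* (K ≃ₐ[ℂ] K)) (f : K) : Prop :=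
  f ≠ 0 ∧ ∃ a, ∀ g, ρ g f = chi a g • f

/-- The torus acts on the projective variety `X`, linearly and diagonally in the homogeneous
coordinates. -/
def Var.Lin (X : Var K) {r : ℕ} (ρ : Tor r →* (K ≃ₐ[ℂ] K)) : Prop := ∀ j, Eig ρ (X.x j)

/-- The field of invariants of the torus. -/
def inv {r : ℕ} (ρ : Tor r →* (K ≃ₐ[ℂ] K)) : IntermediateField ℂ K where
  carrier := {f | ∀ g, ρ g f = f}
  mul_mem' := by intro a b ha hb g; rw [map_mul, ha g, hb g]
  one_mem' := by intro g; exact map_one _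
  add_mem' := by intro a b ha hb g; rw [map_add, ha g, hb g]
  zero_mem' := by intro g; exact map_zero _
  algebraMap_mem' := by intro c g; exact AlgEquiv.commutes _ _
  inv_mem' := by intro a ha g; rw [map_inv₀, ha g]

/-- Rational covariant tensors of degree `p`: the stalk at the generic point of
`(Ω¹_X)^{⊗p}`. -/
abbrev Ten (K : Type*) [Field K] [Algebra ℂ K] (p : ℕ) : Type _ :=
  PiTensorProduct K (fun _ : Fin p => Ω[K⁄ℂ])

/-- The tensor `f da_1 ⊗ … ⊗ da_p`. -/
noncomputable def ten {p : ℕ} (f : K) (a : Fin p → K) : Ten K p :=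
  f • PiTensorProduct.tprod K fun i => KaehlerDifferential.D ℂ K (a i)

/-- The stalk of `(Ω¹)^{⊗p}` at the prime divisor `V`. -/
noncomputable def lat (V : DVal K) (p : ℕ) : AddSubgroup (Ten K p) :=
  AddSubgroup.closure {w | ∃ (f : K) (a : Fin p → K), 0 ≤ V.ord f ∧ (∀ i, 0 ≤ V.ord (a i)) ∧
    w = ten f a}

/-- The tensor `w` has order at least `m` at `V`. -/
def OrdGE (V : DVal K) {p : ℕ} (w : Ten K p) (m : ℤ) : Prop :=
  ∃ (f : K) (u : Ten K p), f ≠ 0 ∧ V.ord f = m ∧ u ∈ lat V p ∧ w = f • u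

/-- The tensor `w` has order `m` at `V`. -/
def HasOrd (V : DVal K) {p : ℕ} (w : Ten K p) (m : ℤ) : Prop := OrdGE V w m ∧ ¬ OrdGE V w (m + 1)

/-- The torus invariant rational tensors: the span over the invariant functions of the tensors
`dlog a_1 ⊗ … ⊗ dlog a_p` with eigenfunctions `a_i`. -/
noncomputable def invTen {r : ℕ} (ρ : Tor r →* (K ≃ₐ[ℂ] K)) (p : ℕ) : AddSubgroup (Ten K p) :=
  AddSubgroup.closure {w | ∃ (f : K) (a : Fin p → K), f ∈ inv ρ ∧ (∀ i, Eig ρ (a i)) ∧
    w = ten (f * ∏ i, (a i)⁻¹) a}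

/-- `w` is a rational differential form of degree `n = dim X`: a multiple of
`da_1 ∧ … ∧ da_n`. -/
def IsVol (w : Ten K (dim K)) : Prop :=
  w ≠ 0 ∧ ∃ (f : K) (a : Fin (dim K) → K),
    w = ∑ σ : Equiv.Perm (Fin (dim K)), (Equiv.Perm.sign σ : ℤ) • ten f (a ∘ σ)

/-- `L = -K_X`: `L` is the Cartier divisor on `X` that is `-div ω` on prime divisors, `ω` a nonzero
rational differential form of degree `dim X`. -/
def Var.Anti (X : Var K) (L : DVal K → ℤ) (ω : Ten K (dim K)) : Prop :=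
  X.Cartier L ∧ IsVol ω ∧ ∀ V, X.IsPrime V → HasOrd V ω (-L V)

end Vale.Agent.P299.V
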