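import Vale.Agent.P299.V.Defs

/-!
# The published theorems used, as propositions
-/

open Filter Topology

namespace Vale.Agent.P299.V

/-- The sum of `φ` over the prime divisors of `X`. -/
noncomputable def Var.tot {K : Type*} [Field K] [Algebra ℂ K] (X : Var K) (φ : DVal K → ℝ) : ℝ :=
  ∑ᶠ V ∈ {V | X.IsPrime V}, φ V

/-- (Auslander–Buchsbaum) On a smooth variety every Weil divisor is Cartier. -/
def FactAB : Prop := ∀ (K : Type) [Field K] [Algebra ℂ K] (X : Var K), X.Smooth →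
  ∀ D : DVal K → ℤ, {V | X.IsPrime V ∧ D V ≠ 0}.Finite →
    ∃ D', X.Cartier D' ∧ ∀ V, X.IsPrime V → D' V = D V

/-- A smoothly semipositive divisor is nef. -/
def FactNef : Prop := ∀ (K : Type) [Field K] [Algebra ℂ K] (X : Var K) (L : DVal K → ℤ),
  X.Smooth → X.SemiPos L → X.Nef L

/-- (Snapper, Kleiman) Intersection numbers `c j V = V · L^j · H^(n-1-j)`, `L` nef,
`H = 𝒪_X(1)`. -/
def FactInt : Prop := ∀ (K : Type) [Field K] [Algebra ℂ K] (X : Var K) (L : DVal K → ℤ),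
  X.Smooth → X.Nef L → ∃ c : ℕ → DVal K → ℝ,
    (∀ j V, X.IsPrime V → 0 ≤ c j V) ∧
    (∀ j f, f ≠ 0 → X.tot (fun V => V.ord f * c j V) = 0) ∧
    (∀ j, j + 1 < dim K → X.tot (fun V => L V * c j V) = X.tot (fun V => X.hyp V * c (j + 1) V)) ∧
    (∀ j, j < dim K → 0 ≤ X.tot (fun V => L V * c j V)) ∧
    (0 < dim K → 0 < X.tot (fun V => X.hyp V * c 0 V)) ∧
    ∀ (a b : ℕ) (D : DVal K → ℤ), 1 ≤ b → {V | X.IsPrime V ∧ D V ≠ 0}.Finite →
      X.Deg (fun V => a * L V + b * X.hyp V) D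
        (∑ j ∈ Finset.range (dim K), ((dim K - 1).choose j : ℝ) * a ^ j * b ^ (dim K - 1 - j) *
          X.tot (fun V => D V * c j V))

/-- (Siu) `A`, `B` nef, `A^n > n A^(n-1) B` imply that `A - B` is big; here `A` is `q` times the
pull back to `X'` of the ample divisor `N = aL + bH`, and `B` is `p` times the pull back of
`𝒪_Y(1)`. -/
def FactSiu : Prop := ∀ (K : Type) [Field K] [Algebra ℂ K] (X X' : Var K) (L : DVal K → ℤ)
    (k : Type) [Field k] [Algebra ℂ k] (ι : k →ₐ[ℂ] K) (Y : Var k) (a b p q : ℕ) (c₁ c₂ : ℝ),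
  X.Smooth → X'.Smooth → X.Nef L → X'.Dom X (AlgHom.id ℂ K) → X'.Dom Y ι → 1 ≤ b →
    X.Deg (fun V => a * L V + b * X.hyp V) (fun V => a * L V + b * X.hyp V) c₁ →
    X.Deg (fun V => a * L V + b * X.hyp V) (pull ι Y.hyp) c₂ →
    (dim K : ℝ) * p * c₂ < q * c₁ →
    ∃ m : ℕ, 1 ≤ m ∧ ∃ s ∈ X'.sec ⊤
      (fun V => m * (q * (a * L V + b * X.hyp V) - p * pull ι Y.hyp V)), s ≠ 0

/-- No holomorphic covariant tensors (this holds for rationally connected `X`). -/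
def Var.NoTen {K : Type*} [Field K] [Algebra ℂ K] (X : Var K) : Prop :=
  ∀ (p : ℕ) (w : Ten K p), 1 ≤ p → (∀ V, X.IsPrime V → OrdGE V w 0) → w = 0

/-- The situation of the theorem: `X` smooth projective with an action of a torus and
`L = -K_X` semipositive, `ω` an invariant rational form of top degree. -/
structure Sit {K : Type} [Field K] [Algebra ℂ K] {r : ℕ} (ρ : Tor r →* (K ≃ₐ[ℂ] K)) (X : Var K)
    (L : DVal K → ℤ) (ω : Ten K (dim K)) : Prop where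
  smooth : X.Smooth
  lin : X.Lin ρ
  anti : X.Anti L ω
  invForm : ω ∈ invTen ρ (dim K)
  semi : X.SemiPos L

/-- (Kawamata–Viehweg, Teleman) If `-K_X` is big then some `-mK_X` has an invariant section. -/
def FactBig : Prop := ∀ (K : Type) [Field K] [Algebra ℂ K] (r : ℕ)
    (ρ : Tor r →* (K ≃ₐ[ℂ] K)) (X : Var K) (L : DVal K → ℤ) (ω : Ten K (dim K)), Sit ρ X L ω →
  (∃ m : ℕ, 1 ≤ m ∧ ∃ s ∈ X.sec ⊤ (fun V => m * L V - X.hyp V), s ≠ 0) →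
    ∃ m : ℕ, 1 ≤ m ∧ ∃ s ∈ X.sec (inv ρ) (fun V => m * L V), s ≠ 0

/-- (Teleman, Hirzebruch–Riemann–Roch, hard Lefschetz of Mourougane, Takegoshi and
Demailly–Peternell–Schneider) If no `-mK_X` has an invariant section and `X` has no
holomorphic tensors, then for some `p` infinitely many
`(Ω¹)^{⊗p} ⊗ (-mK_X)` have an invariant section. -/
def FactTen : Prop := ∀ (K : Type) [Field K] [Algebra ℂ K] (r : ℕ)
    (ρ : Tor r →* (K ≃ₐ[ℂ] K)) (X : Var K) (L : DVal K → ℤ) (ω : Ten K (dim K)), Sit ρ X L ω →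
  X.NoTen → (∀ m : ℕ, 1 ≤ m → ∀ s ∈ X.sec (inv ρ) (fun V => m * L V), s = 0) →
    ∃ p : ℕ, ∀ m₀ : ℕ, ∃ m : ℕ, m₀ ≤ m ∧ ∃ w ∈ invTen ρ p, w ≠ 0 ∧
      ∀ V, X.IsPrime V → OrdGE V w (-(m * L V))

/-- (Yau; Campana–Demailly–Peternell, Cao, Ou: generic nefness of `T_X`) The subsheaf of
`(Ω¹_X)^{⊗p}` generated at the generic point by the linearly independent tensors `w_i` has
nonpositive degree.  Its first Chern class is `P`, the divisor of `w_1 ∧ … ∧ w_r`. -/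
def FactGen : Prop := ∀ (K : Type) [Field K] [Algebra ℂ K] (r : ℕ)
    (ρ : Tor r →* (K ≃ₐ[ℂ] K)) (X : Var K) (L : DVal K → ℤ) (ω : Ten K (dim K)), Sit ρ X L ω →
  ∀ (p s : ℕ) (w : Fin s → Ten K p) (P : DVal K → ℤ), LinearIndependent K w →
    (∀ V, X.IsPrime V → ∃ A : Matrix (Fin s) (Fin s) K, A.det ≠ 0 ∧ V.ord A.det = P V ∧
      ∃ u : Fin s → Ten K p, (∀ i, w i = ∑ j, A i j • u j) ∧
        ∀ f : Fin s → K, ∑ j, f j • u j ∈ lat V p ↔ ∀ j, 0 ≤ V.ord (f j)) →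
    ∀ (a b : ℕ) (c : ℝ), 1 ≤ b → X.Deg (fun V => a * L V + b * X.hyp V) P c → c ≤ 0

/-- (Raynaud–Gruson, Hironaka: flattening and equivariant resolution) -/
def FactFlat : Prop := ∀ (K : Type) [Field K] [Algebra ℂ K] (r : ℕ)
    (ρ : Tor r →* (K ≃ₐ[ℂ] K)) (X : Var K) (L : DVal K → ℤ) (ω : Ten K (dim K)), Sit ρ X L ω →
  ∀ k : IntermediateField ℂ K, k ≤ inv ρ → ∃ (Y : Var k) (X₁ X' : Var K) (E : DVal K → ℤ),
    Y.Smooth ∧ X₁.Normal ∧ X'.Smooth ∧ X'.Lin ρ ∧ X₁.Dom X (AlgHom.id ℂ K) ∧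
    X'.Dom X₁ (AlgHom.id ℂ K) ∧ X₁.Dom Y k.val ∧
    -- `X₁ → Y` is equidimensional
    (∀ V, X₁.IsPrime V → (∀ f : k, V.ord (f : K) = 0) ∨
      ∃ (Q : DVal k) (m : ℕ), Y.IsPrime Q ∧ 1 ≤ m ∧ ∀ f : k, V.ord (f : K) = m * Q.ord f) ∧
    -- and surjective
    (∀ Q, Y.IsPrime Q → ∃ (V : DVal K) (m : ℕ), X₁.IsPrime V ∧ 1 ≤ m ∧
      ∀ f : k, V.ord (f : K) = m * Q.ord f) ∧
    -- `E = K_{X'} - K_X` is effective
    X'.Cartier E ∧ ∀ V, X'.IsPrime V → HasOrd V ω (E V - L V) ∧ 0 ≤ E V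

/-- The situation `X ← X' → Y`. -/
structure Sit' {K : Type} [Field K] [Algebra ℂ K] {r : ℕ} (ρ : Tor r →* (K ≃ₐ[ℂ] K)) (X X' : Var K)
    (L E : DVal K → ℤ) (ω : Ten K (dim K)) (k : IntermediateField ℂ K) (Y : Var k) : Prop
    extends Sit ρ X L ω where
  smooth' : X'.Smooth
  lin' : X'.Lin ρ
  dom : X'.Dom X (AlgHom.id ℂ K)
  le : k ≤ inv ρ
  smoothY : Y.Smooth
  domY : X'.Dom Y k.val
  ordE : ∀ V, X'.IsPrime V → HasOrd V ω (E V - L V)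

/-- (Kollár–Ohsawa–Takegoshi vanishing and Castelnuovo–Mumford regularity) For `φ : X' → Y` the
sheaf of invariants of `φ_*(K_{X'} + (m+1) L) ⊗ 𝒪_Y(d+1)`, `d = dim Y`, is globally generated. -/
def FactCM : Prop := ∀ (K : Type) [Field K] [Algebra ℂ K] (r : ℕ) (ρ : Tor r →* (K ≃ₐ[ℂ] K))
    (X X' : Var K) (L E : DVal K → ℤ) (ω : Ten K (dim K)) (k : IntermediateField ℂ K) (Y : Var k),
  Sit' ρ X X' L E ω k Y → ∀ (m : ℕ) (i : Fin (Y.N + 1)) (f : K), f ∈ inv ρ →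
    (∀ V, X'.IsPrime V → (∀ l, 0 ≤ V.ord ((Y.x l / Y.x i : k) : K)) →
      f = 0 ∨ -(E V + m * L V) ≤ V.ord f) →
    f * ((Y.x i : k) : K) ^ (dim k + 1) ∈
      Submodule.span (Algebra.adjoin ℂ (Set.range fun l => ((Y.x l / Y.x i : k) : K)))
        (X'.sec (inv ρ) (fun V => E V + m * L V + (dim k + 1) * pull k.val Y.hyp V) : Set K)

/-- (Kollár–Nadel vanishing of Matsumura and Fujino–Matsumura, and Snapper's theorem) If
`qL - φ^*𝒪_Y(1)` is pseudoeffective for some `q` and `R` is nef on `Y`, then the dimension of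
the space of invariant sections of `K_{X'} + L + j φ^*R` is a polynomial in `j ≥ 0`. -/
def FactPol : Prop := ∀ (K : Type) [Field K] [Algebra ℂ K] (r : ℕ) (ρ : Tor r →* (K ≃ₐ[ℂ] K))
    (X X' : Var K) (L E : DVal K → ℤ) (ω : Ten K (dim K)) (k : IntermediateField ℂ K) (Y : Var k)
    (R : DVal k → ℤ) (q : ℕ),
  Sit' ρ X X' L E ω k Y →
  (∀ a : ℕ, ∃ m : ℕ, 1 ≤ m ∧ ∃ s ∈ X'.sec ⊤
    (fun V => m * (a * (q * L V - pull k.val Y.hyp V) + X.hyp V)), s ≠ 0) →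
  Y.Nef R → ∃ P : Polynomial ℚ, ∀ j : ℕ,
    FiniteDimensional ℂ (X'.sec (inv ρ) (fun V => E V + j * pull k.val R V)) ∧
    (Module.finrank ℂ (X'.sec (inv ρ) (fun V => E V + j * pull k.val R V)) : ℚ) = P.eval (j : ℚ)

/-- (Structure theorem of Demailly–Peternell–Schneider and Campana–Demailly–Peternell)
Reduction to a rationally connected variety with a torus action. -/
def FactStr : Prop := ∀ (K₀ : Type) [Field K₀] [Algebra ℂ K₀] (X₀ : Var K₀) (L₀ : DVal K₀ → ℤ)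
    (ω₀ : Ten K₀ (dim K₀)), X₀.Smooth → X₀.Anti L₀ ω₀ → X₀.SemiPos L₀ →
  ∃ (K : Type) (_ : Field K) (_ : Algebra ℂ K) (r : ℕ) (ρ : Tor r →* (K ≃ₐ[ℂ] K)) (X : Var K)
    (L : DVal K → ℤ) (ω : Ten K (dim K)), Sit ρ X L ω ∧ X.NoTen ∧
    ((∃ m : ℕ, 1 ≤ m ∧ ∃ s ∈ X.sec (inv ρ) (fun V => m * L V), s ≠ 0) →
      ∃ m : ℕ, 1 ≤ m ∧ ∃ s ∈ X₀.sec ⊤ (fun V => m * L₀ V), s ≠ 0)

end Vale.Agent.P299.V
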