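import Vale.Agent.P299.V.Facts

/-!
# Skeleton: the statements of the blocks
-/

open MvPolynomial Filter Topology

namespace Vale.Agent.P299.V

/-! ## B1: basics -/

/-- (Pt) the centre of every valuation passes through a complex point (Nullstellensatz) -/
def PtStmt : Prop := ∀ (K : Type) [Field K] [Algebra ℂ K] (X : Var K) (V : DVal K),
  ∃ c, X.IsPt c ∧ X.Thr V c

/-- (Unit) forms that do not vanish at `c` do not vanish at valuations through `c` -/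
def UnitStmt : Prop := ∀ (K : Type) [Field K] [Algebra ℂ K] (X : Var K) (V : DVal K)
  (c : Fin (X.N + 1) → ℂ), X.IsPt c → X.Thr V c → ∀ (d : ℕ) (S : MvPolynomial (Fin (X.N + 1)) ℂ),
    S.IsHomogeneous d → eval c S ≠ 0 → V.ord (aeval X.x S) + d * X.hyp V = 0

/-- (Img) image points -/
def ImgStmt : Prop := ∀ (K : Type) [Field K] [Algebra ℂ K] (k : Type) [Field k] [Algebra ℂ k]
  (ι : k →ₐ[ℂ] K) (X : Var K) (Y : Var k), X.Dom Y ι → ∀ c, X.IsPt c →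
    ∃ c', Y.IsPt c' ∧ ∀ f, Y.RegAt c' f → X.RegAt c (ι f)

/-- (Cart) Cartier divisors: sums, multiples, divisors of functions, `𝒪(1)`, pull back -/
def CartStmt : Prop := ∀ (K : Type) [Field K] [Algebra ℂ K] (X : Var K),
  (∀ D D', X.Cartier D → X.Cartier D' → X.Cartier fun V => D V + D' V) ∧
  (∀ (a : ℤ) D, X.Cartier D → X.Cartier fun V => a * D V) ∧
  (∀ f, f ≠ 0 → X.Cartier fun V => V.ord f) ∧
  X.Cartier X.hyp ∧
  (∀ X' : Var K, X'.Dom X (AlgHom.id ℂ K) → ∀ D, X.Cartier D → X'.Cartier D) ∧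
  ∀ (k : Type) [Field k] [Algebra ℂ k] (ι : k →ₐ[ℂ] K) (Y : Var k), X.Dom Y ι →
    ∀ D, Y.Cartier D → X.Cartier (pull ι D)

/-- (Hart) an effective Cartier divisor on a normal variety is effective at all valuations -/
def HartStmt : Prop := ∀ (K : Type) [Field K] [Algebra ℂ K] (X : Var K) (D : DVal K → ℤ),
  X.Normal → X.Cartier D → (∀ V, X.IsPrime V → 0 ≤ D V) → ∀ V, 0 ≤ D V

/-- (Mono) prime divisors of `X` are prime divisors of every `X'` over `X` -/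
def MonoStmt : Prop := ∀ (K : Type) [Field K] [Algebra ℂ K] (X X' : Var K),
  X'.Dom X (AlgHom.id ℂ K) → ∀ V, X.IsPrime V → X'.IsPrime V

/-- (Fin) finiteness of supports -/
def FinStmt : Prop := ∀ (K : Type) [Field K] [Algebra ℂ K] (X : Var K),
  (∀ f, {V | X.IsPrime V ∧ V.ord f ≠ 0}.Finite) ∧
  ∀ D, X.Cartier D → {V | X.IsPrime V ∧ D V ≠ 0}.Finite

/-- (Pull) computing `pull` -/
def PullStmt : Prop := ∀ (K : Type) [Field K] [Algebra ℂ K] (k : Type) [Field k] [Algebra ℂ k]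
  (ι : k →ₐ[ℂ] K) (D : DVal k → ℤ) (V : DVal K),
  ((∀ f, V.ord (ι f) = 0) → pull ι D V = 0) ∧
  (∀ (Q : DVal k) (m : ℕ), 1 ≤ m → (∀ f, V.ord (ι f) = m * Q.ord f) → pull ι D V = m * D Q) ∧
  ((∀ f, V.ord (ι f) = 0) ∨ ∃ (Q : DVal k) (m : ℕ), 1 ≤ m ∧ ∀ f, V.ord (ι f) = m * Q.ord f)

/-! ## B2: the field of functions with null divisor -/

/-- A degree function: nonnegative on prime divisors, zero on principal divisors. -/
def IsDeg {K : Type} [Field K] [Algebra ℂ K] (X : Var K) (δ : DVal K → ℝ) : Prop :=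
  (∀ V, X.IsPrime V → 0 ≤ δ V) ∧ ∀ f : K, f ≠ 0 → X.tot (fun V => V.ord f * δ V) = 0

/-- (KY) there is a subfield `k` of `F`: the functions without poles along the prime divisors of
positive degree. -/
def KYStmt : Prop := ∀ (K : Type) [Field K] [Algebra ℂ K] (X : Var K) (F : IntermediateField ℂ K)
  (δ : DVal K → ℝ), IsDeg X δ → ∃ k : IntermediateField ℂ K,
    (∀ f, f ∈ k ↔ f ∈ F ∧ ∀ V, X.IsPrime V → 0 < δ V → 0 ≤ V.ord f) ∧
    ∀ f ∈ k, ∀ V, X.IsPrime V → 0 < δ V → V.ord f = 0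

/-- (Sign) the function `σ` and the number `m`. -/
def SignStmt : Prop := ∀ (K : Type) [Field K] [Algebra ℂ K] (X : Var K) (F : IntermediateField ℂ K)
  (δ : DVal K → ℝ) (L P : DVal K → ℤ) (k : IntermediateField ℂ K), X.Normal → IsDeg X δ →
  (∀ f, f ∈ k ↔ f ∈ F ∧ ∀ V, X.IsPrime V → 0 < δ V → 0 ≤ V.ord f) →
  X.Cartier L → X.Cartier P → X.tot (fun V => L V * δ V) = 0 → X.tot (fun V => P V * δ V) ≤ 0 →
  (∀ m₀ : ℕ, ∃ m : ℕ, m₀ ≤ m ∧ ∃ f ∈ X.sec F (fun V => P V + m * L V), f ≠ 0) →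
  ∃ (m : ℕ) (σ : K), 1 ≤ m ∧ σ ∈ F ∧ σ ≠ 0 ∧
    (∀ V, X.IsPrime V → 0 < δ V → V.ord σ + m * L V = 0) ∧
    ∀ V : DVal K, (∀ f ∈ k, V.ord f = 0) → 0 ≤ V.ord σ + m * L V

/-! ## B3: the divisor `R` -/

/-- (Rdiv) `D` Cartier on `X₁`, nonnegative on horizontal valuations; then a multiple of `D` is
`φ^*R` plus an effective divisor that vanishes on some prime over every prime of `Y`. -/
def RdivStmt : Prop := ∀ (K : Type) [Field K] [Algebra ℂ K] (k : IntermediateField ℂ K) (Y : Var k)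
  (X₁ : Var K) (D : DVal K → ℤ), Y.Smooth → X₁.Normal → X₁.Dom Y k.val →
  (∀ V, X₁.IsPrime V → (∀ f : k, V.ord (f : K) = 0) ∨
      ∃ (Q : DVal k) (m : ℕ), Y.IsPrime Q ∧ 1 ≤ m ∧ ∀ f : k, V.ord (f : K) = m * Q.ord f) →
  (∀ Q, Y.IsPrime Q → ∃ (V : DVal K) (m : ℕ), X₁.IsPrime V ∧ 1 ≤ m ∧
      ∀ f : k, V.ord (f : K) = m * Q.ord f) →
  X₁.Cartier D → (∀ V : DVal K, (∀ f ∈ k, V.ord f = 0) → 0 ≤ D V) →
  ∃ (c : ℕ) (R : DVal k → ℤ), 1 ≤ c ∧ Y.Cartier R ∧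
    (∀ V, 0 ≤ c * D V - pull k.val R V) ∧
    ∀ Q, Y.IsPrime Q → ∃ (V : DVal K) (m : ℕ), X₁.IsPrime V ∧ 1 ≤ m ∧
      (∀ f : k, V.ord (f : K) = m * Q.ord f) ∧ c * D V = m * R Q

/-! ## B4: `R` is nef -/

/-- (Nef) abstract form: `X'` over `Y`; every `V_j ⊗ 𝒪_Y(d+1)` is globally generated, where
`V_j = φ_* 𝒪(E + j M)`, `M = φ^*R + (effective)` up to the divisor of `σ`. -/
def NefStmt : Prop := ∀ (K : Type) [Field K] [Algebra ℂ K] (F k : IntermediateField ℂ K)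
  (Y : Var k) (X' : Var K) (L E : DVal K → ℤ) (R : DVal k → ℤ) (σ : K) (m₀ e : ℕ), k ≤ F →
  Y.Smooth → X'.Cartier E → Y.Cartier R → σ ∈ F → σ ≠ 0 → X'.Dom Y k.val →
  (∀ V, X'.IsPrime V → 0 ≤ E V) →
  -- `m₀ L + div σ ≥ φ^*R`
  (∀ V, X'.IsPrime V → 0 ≤ V.ord σ + m₀ * L V - pull k.val R V) →
  -- with equality at some prime over every prime of `Y`
  (∀ Q, Y.IsPrime Q → ∃ (V : DVal K) (m : ℕ), X'.IsPrime V ∧ 1 ≤ m ∧
      (∀ f : k, V.ord (f : K) = m * Q.ord f) ∧ V.ord σ + m₀ * L V = m * R Q) →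
  -- rank one
  (∀ (j : ℕ) (f : K), f ∈ F → (∃ i : Fin (Y.N + 1), ∀ V, X'.IsPrime V →
      (∀ l, 0 ≤ V.ord ((Y.x l / Y.x i : k) : K)) → f = 0 ∨ -(E V + (j * m₀ : ℕ) * L V) ≤ V.ord f) →
    f / σ ^ j ∈ k) →
  -- global generation
  (∀ (m : ℕ) (i : Fin (Y.N + 1)) (f : K), f ∈ F →
    (∀ V, X'.IsPrime V → (∀ l, 0 ≤ V.ord ((Y.x l / Y.x i : k) : K)) →
      f = 0 ∨ -(E V + m * L V) ≤ V.ord f) →
    f * ((Y.x i : k) : K) ^ e ∈
      Submodule.span (Algebra.adjoin ℂ (Set.range fun l => ((Y.x l / Y.x i : k) : K)))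
        (X'.sec F (fun V => E V + m * L V + e * pull k.val Y.hyp V) : Set K)) →
  Y.Nef R

/-! ## B5: intersection numbers -/

/-- (Num) either `L` is big or there is a degree function `δ` with the properties used. -/
def NumStmt : Prop := FactInt → FactSiu → ∀ (K : Type) [Field K] [Algebra ℂ K] (X : Var K)
  (L : DVal K → ℤ), X.Smooth → X.Nef L → 0 < dim K →
  (∃ m : ℕ, 1 ≤ m ∧ ∃ s ∈ X.sec ⊤ (fun V => m * L V - X.hyp V), s ≠ 0) ∨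
  ∃ δ : DVal K → ℝ, IsDeg X δ ∧ X.tot (fun V => L V * δ V) = 0 ∧
    (∀ P : DVal K → ℤ, {V | X.IsPrime V ∧ P V ≠ 0}.Finite →
      (∀ (a b : ℕ) (c : ℝ), 1 ≤ b → X.Deg (fun V => a * L V + b * X.hyp V) P c → c ≤ 0) →
      X.tot (fun V => P V * δ V) ≤ 0) ∧
    ∀ (X' : Var K) (k : Type) [Field k] [Algebra ℂ k] (ι : k →ₐ[ℂ] K) (Y : Var k),
      X'.Smooth → X'.Dom X (AlgHom.id ℂ K) → X'.Dom Y ι →
      (∀ V, X.IsPrime V → 0 < δ V → pull ι Y.hyp V = 0) →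
      ∃ q : ℕ, ∀ a : ℕ, ∃ m : ℕ, 1 ≤ m ∧ ∃ s ∈ X'.sec ⊤
        (fun V => m * (a * (q * L V - pull ι Y.hyp V) + X.hyp V)), s ≠ 0

/-! ## B7: the determinant trick -/

/-- (Det) the divisor `P`. -/
def DetStmt : Prop := FactTen → FactGen → ∀ (K : Type) [Field K] [Algebra ℂ K] (r : ℕ)
  (ρ : Tor r →* (K ≃ₐ[ℂ] K)) (X : Var K) (L : DVal K → ℤ) (ω : Ten K (dim K)), Sit ρ X L ω →
  X.NoTen → (∀ m : ℕ, 1 ≤ m → ∀ s ∈ X.sec (inv ρ) (fun V => m * L V), s = 0) →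
  ∃ P : DVal K → ℤ, {V | X.IsPrime V ∧ P V ≠ 0}.Finite ∧
    (∀ (a b : ℕ) (c : ℝ), 1 ≤ b → X.Deg (fun V => a * L V + b * X.hyp V) P c → c ≤ 0) ∧
    ∀ m₀ : ℕ, ∃ m : ℕ, m₀ ≤ m ∧ ∃ f ∈ X.sec (inv ρ) (fun V => P V + m * L V), f ≠ 0

/-! ## B6: the main argument for one variety -/

/-- (Main) -/
def MainStmt : Prop := FactAB → FactNef → FactInt → FactSiu → FactBig → FactTen → FactGen →
  FactFlat → FactCM → FactPol → ∀ (K : Type) [Field K] [Algebra ℂ K] (r : ℕ)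
  (ρ : Tor r →* (K ≃ₐ[ℂ] K)) (X : Var K) (L : DVal K → ℤ) (ω : Ten K (dim K)), Sit ρ X L ω →
  X.NoTen → ∃ m : ℕ, 1 ≤ m ∧ ∃ s ∈ X.sec (inv ρ) (fun V => m * L V), s ≠ 0

end Vale.Agent.P299.V
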